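import Vale.Agent.P128.Network.Competitor

/-!
# P128 regularity R4: star network with an arbitrary centre

The index of a point is the arc hit by the ray from the centre through the point.
-/

open MeasureTheory Set Metric Filter Complex
open scoped Topology Real RealInnerProductSpace

noncomputable section

namespace Vale.Agent.P128.Regularity

open Vale.Agent.P128.Network

variable {K : Set ℂ} {x : ℂ} {r : ℝ} {t : ℕ → ℝ} {m : ℕ}

/-- Ray parameter of the unit circle from `a` through `q`. -/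
def exitPar (a q : ℂ) : ℝ :=
  (-⟪a, q - a⟫ + Real.sqrt (⟪a, q - a⟫ ^ 2 + ‖q - a‖ ^ 2 * (1 - ‖a‖ ^ 2))) / ‖q - a‖ ^ 2

/-- Exit point of the ray from `a` through `q`. -/
def exitPt (a q : ℂ) : ℂ := a + exitPar a q • (q - a)

theorem norm_add_smul_sq (a d : ℂ) (s : ℝ) :
    ‖a + s • d‖ ^ 2 = ‖a‖ ^ 2 + 2 * s * ⟪a, d⟫ + s ^ 2 * ‖d‖ ^ 2 := by
  rw [norm_add_sq_real, real_inner_smul_right, norm_smul, mul_pow, Real.norm_eq_abs, sq_abs]
  ring

theorem norm_exitPt {a q : ℂ} (ha : ‖a‖ < 1) (hq : q ≠ a) : ‖exitPt a q‖ = 1 := by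
  have hd : 0 < ‖q - a‖ := norm_pos_iff.2 (sub_ne_zero.2 hq)
  have hdisc : 0 ≤ ⟪a, q - a⟫ ^ 2 + ‖q - a‖ ^ 2 * (1 - ‖a‖ ^ 2) := by
    have : ‖a‖ ^ 2 ≤ 1 := pow_le_one₀ (norm_nonneg _) ha.le
    nlinarith [sq_nonneg ⟪a, q - a⟫, sq_nonneg ‖q - a‖]
  set β := ⟪a, q - a⟫ with hβ
  set R := Real.sqrt (β ^ 2 + ‖q - a‖ ^ 2 * (1 - ‖a‖ ^ 2)) with hR
  have hR2 : R ^ 2 = β ^ 2 + ‖q - a‖ ^ 2 * (1 - ‖a‖ ^ 2) := Real.sq_sqrt hdisc
  have hsq : ‖exitPt a q‖ ^ 2 = 1 := by
    rw [exitPt, norm_add_smul_sq, exitPar, ← hβ, ← hR]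
    field_simp
    nlinarith
  nlinarith [norm_nonneg (exitPt a q)]

theorem one_le_exitPar {a q : ℂ} (hq : q ≠ a) (hq1 : ‖q‖ ≤ 1) :
    1 ≤ exitPar a q := by
  have hd : 0 < ‖q - a‖ := norm_pos_iff.2 (sub_ne_zero.2 hq)
  have h1 : ‖q‖ ^ 2 ≤ 1 := pow_le_one₀ (norm_nonneg _) hq1
  have hexp : ‖q‖ ^ 2 = ‖a‖ ^ 2 + 2 * ⟪a, q - a⟫ + ‖q - a‖ ^ 2 := by
    have := norm_add_smul_sq a (q - a) 1
    rw [one_smul, add_sub_cancel] at this
    linarith
  rw [exitPar, le_div_iff₀ (by positivity), one_mul]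
  have : ⟪a, q - a⟫ + ‖q - a‖ ^ 2 ≤
      Real.sqrt (⟪a, q - a⟫ ^ 2 + ‖q - a‖ ^ 2 * (1 - ‖a‖ ^ 2)) := by
    refine Real.le_sqrt_of_sq_le ?_
    nlinarith [sq_nonneg ‖q - a‖]
  linarith

theorem exitPt_of_norm_eq_one {a q : ℂ} (ha : ‖a‖ < 1) (hq : ‖q‖ = 1) : exitPt a q = q := by
  have hne : q ≠ a := by rintro rfl; linarith
  have hd : 0 < ‖q - a‖ := norm_pos_iff.2 (sub_ne_zero.2 hne)
  have hexp : (1 : ℝ) = ‖a‖ ^ 2 + 2 * ⟪a, q - a⟫ + ‖q - a‖ ^ 2 := by
    have := norm_add_smul_sq a (q - a) 1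
    rw [one_smul, add_sub_cancel, hq] at this
    linarith
  have hpos : 0 ≤ ⟪a, q - a⟫ + ‖q - a‖ ^ 2 := by
    have h2 : ‖a‖ ^ 2 ≤ 1 := pow_le_one₀ (norm_nonneg _) ha.le
    nlinarith [sq_nonneg ‖q - a‖]
  have : exitPar a q = 1 := by
    rw [exitPar, show ⟪a, q - a⟫ ^ 2 + ‖q - a‖ ^ 2 * (1 - ‖a‖ ^ 2) =
      (⟪a, q - a⟫ + ‖q - a‖ ^ 2) ^ 2 by nlinarith, Real.sqrt_sq hpos, neg_add_cancel_left,
      div_self (by positivity)]
  rw [exitPt, this, one_smul, add_sub_cancel]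

theorem continuousAt_exitPt {a q : ℂ} (hq : q ≠ a) : ContinuousAt (exitPt a) q := by
  have hne : ‖q - a‖ ^ 2 ≠ 0 := pow_ne_zero _ (norm_ne_zero_iff.2 (sub_ne_zero.2 hq))
  have h : ContinuousAt (exitPar a) q := by
    refine ContinuousAt.div ?_ (by fun_prop) hne
    fun_prop
  exact continuousAt_const.add (h.smul (by fun_prop))

theorem mem_segment_exitPt {a q : ℂ} (hq : q ≠ a) (hq1 : ‖q‖ ≤ 1) :
    q ∈ segment ℝ (exitPt a q) a := by
  have hl := one_le_exitPar hq hq1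
  refine ⟨(exitPar a q)⁻¹, 1 - (exitPar a q)⁻¹, inv_nonneg.2 (by linarith),
    sub_nonneg.2 (inv_le_one_of_one_le₀ hl), by ring, ?_⟩
  rw [exitPt, smul_add, smul_smul, inv_mul_cancel₀ (by linarith), one_smul, sub_smul, one_smul]
  abel

/-- The arc containing a unit vector. -/
def arcOf (t : ℕ → ℝ) (m : ℕ) (b : ℂ) : ℕ :=
  open scoped Classical in
  if h : ∃ j, j < m ∧ ∃ θ ∈ Ioo (t j) (t (j + 1)), exp (θ * I) = b then h.choose else 0

theorem arcOf_exp (hp : IsPartition K x r t m) {j : ℕ} (hj : j < m) {θ : ℝ}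
    (hθ : θ ∈ Ioo (t j) (t (j + 1))) : arcOf t m (exp (θ * I)) = j := by
  have h : ∃ i, i < m ∧ ∃ φ ∈ Ioo (t i) (t (i + 1)), exp (φ * I) = exp (θ * I) :=
    ⟨j, hj, θ, hθ, rfl⟩
  rw [arcOf, dif_pos h]
  obtain ⟨hi, φ, hφ, heq⟩ := h.choose_spec
  generalize h.choose = i at hi hφ
  have hmono : ∀ i k, i + k ≤ m → t i ≤ t (i + k) := by
    intro i k hk
    induction k with
    | zero => simp
    | succ k ih => exact (ih (by omega)).trans (hp.2.2 (i + k) (by omega)).1.1.le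
  have hrange : ∀ i < m, ∀ φ ∈ Ioo (t i) (t (i + 1)), t 0 < φ ∧ φ < t 0 + 2 * π := by
    intro i hi φ hφ
    refine ⟨lt_of_le_of_lt (by simpa using hmono 0 i (by omega)) hφ.1, hφ.2.trans_le ?_⟩
    have := hmono (i + 1) (m - (i + 1)) (by omega)
    rwa [show i + 1 + (m - (i + 1)) = m by omega, hp.2.1] at this
  obtain ⟨n, hn⟩ := exp_eq_exp_iff_exists_int.1 heq
  have hnr : φ = θ + n * (2 * π) := by
    have := congrArg Complex.im hn
    simpa using this
  have a1 := hrange i hi φ hφ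
  have a2 := hrange j hj θ hθ
  have hn0 : n = 0 := by
    have h1 : (n : ℝ) < 1 := by nlinarith [Real.pi_pos]
    have h2 : (-1 : ℝ) < n := by nlinarith [Real.pi_pos]
    have h1' : n < 1 := by exact_mod_cast h1
    have h2' : -1 < n := by exact_mod_cast h2
    omega
  rw [hn0] at hnr
  simp only [Int.cast_zero, zero_mul, add_zero] at hnr
  subst hnr
  rcases lt_trichotomy i j with h' | h' | h'
  · exfalso
    have := hmono (i + 1) (j - (i + 1)) (by omega)
    rw [show i + 1 + (j - (i + 1)) = j by omega] at this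
    linarith [hφ.2, hθ.1]
  · exact h'
  · exfalso
    have := hmono (j + 1) (i - (j + 1)) (by omega)
    rw [show j + 1 + (i - (j + 1)) = i by omega] at this
    linarith [hφ.1, hθ.2]

/-- The star centred at `a`. -/
theorem isNet_star (hp : IsPartition K x r t m) {a : ℂ} (ha : ‖a‖ < 1) :
    IsNet t m (∑ k ∈ Finset.range m, dist (exp (t k * I)) a) m
      (fun k => (exp (t k * I), a)) (fun q => arcOf t m (exitPt a q)) := by
  refine ⟨le_rfl, ?_, fun k _ => ⟨(norm_exp_ofReal_mul_I _).le, ha.le⟩, ?_⟩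
  · intro z hz hnot
    have hza : z ≠ a := by
      rintro rfl
      exact hnot 0 hp.1 (right_mem_segment ℝ _ _)
    have hb := norm_exitPt ha hza
    set b := exitPt a z with hbdef
    have hbθ : b = exp (arg b * I) := by
      conv_lhs => rw [← norm_mul_exp_arg_mul_I b, hb, ofReal_one, one_mul]
    obtain ⟨j, hj, k, hk⟩ := exists_arc hp (arg b)
    have hbk : exp (((arg b + k * (2 * π) : ℝ) : ℂ) * I) = b := by
      rw [exp_mul_I_add_int, ← hbθ]
    rcases hk with hk | hk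
    · exfalso
      refine hnot j hj ?_
      rw [hk] at hbk
      simp only [hbk]
      exact mem_segment_exitPt hza hz
    set θ := arg b + k * (2 * π) with hθdef
    let α : ℂ → ℝ := fun y => θ + arg (exitPt a y * exp (-(θ * I)))
    have hα0 : exitPt a z * exp (-(θ * I)) = 1 := by
      rw [← hbdef, ← hbk, ← exp_add, add_neg_cancel, exp_zero]
    have hαc : ContinuousAt α z := continuousAt_const.add
      (ContinuousAt.comp (f := fun y => exitPt a y * exp (-(θ * I)))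
        (continuousAt_arg (by rw [hα0]; exact one_mem_slitPlane))
        ((continuousAt_exitPt hza).mul continuousAt_const))
    have hαz : α z = θ := by simp only [α, hα0, arg_one, add_zero]
    have hev : ∀ᶠ y in 𝓝 z, α y ∈ Ioo (t j) (t (j + 1)) ∧ y ≠ a :=
      Eventually.and (hαc.preimage_mem_nhds (isOpen_Ioo.mem_nhds (hαz.symm ▸ hk)))
        (eventually_ne_nhds hza)
    filter_upwards [nhdsWithin_le_nhds hev] with y ⟨hy, hya⟩
    have hey : exitPt a y = exp (α y * I) := by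
      have h := norm_mul_exp_arg_mul_I (exitPt a y * exp (-(θ * I)))
      rw [norm_rot, norm_exitPt ha hya, ofReal_one, one_mul] at h
      simp only [α]
      push_cast
      rw [add_mul, exp_add, h, exp_rot_cancel]
    show arcOf t m (exitPt a y) = arcOf t m (exitPt a z)
    rw [hey, arcOf_exp hp hj hy, ← hbdef, ← hbk, arcOf_exp hp hj hk]
  · intro j hj θ hθ
    show arcOf t m (exitPt a (exp (θ * I))) = j
    rw [exitPt_of_norm_eq_one ha (norm_exp_ofReal_mul_I θ), arcOf_exp hp hj hθ]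

end Vale.Agent.P128.Regularity
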